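import Claimed.Agent.R213.ODE.FlowC1

/-! # Row 213, ODE layer, part 2: the flow of a compactly supported smooth vector field on a finite
dimensional space is jointly smooth in time and starting point.

Main statements:
* `IsFlow F fl`: `fl` is a global flow of the autonomous field `F`;
* `IsFlow.eq_of_Ioo`: uniqueness of integral curves on an interval around `0`;
* `IsFlow.contDiff`: the flow of a compactly supported smooth field is jointly smooth;
* `exists_smooth_flow`: existence, smoothness, group law.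
-/

set_option autoImplicit false

namespace Claimed.Agent.R213
namespace ODE

open Set Filter Topology Metric
open scoped NNReal ContDiff

universe u

section basic
variable {E : Type*} [NormedAddCommGroup E] [NormedSpace ℝ E]

/-- `fl` is a global flow of the autonomous vector field `F`. -/
def IsFlow (F : E → E) (fl : ℝ → E → E) : Prop :=
  (∀ x, fl 0 x = x) ∧ ∀ x s, HasDerivAt (fun r => fl r x) (F (fl s x)) s

/-- Uniqueness of integral curves on an interval around `0`. -/
theorem IsFlow.eq_of_Ioo {F : E → E} {K : ℝ≥0} (hK : LipschitzWith K F) {fl : ℝ → E → E}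
    (h : IsFlow F fl) {α : ℝ → E} {a b : ℝ} (h0 : (0 : ℝ) ∈ Ioo a b)
    (hα : ∀ t ∈ Ioo a b, HasDerivAt α (F (α t)) t) : ∀ t ∈ Ioo a b, α t = fl t (α 0) := by
  intro t ht
  refine ODE_solution_unique_of_mem_Ioo (v := fun _ => F) (s := fun _ => univ) (K := K) (t₀ := 0)
      (f := α) (g := fun r => fl r (α 0))
      (fun t _ => hK.lipschitzOnWith) h0
      (fun t ht => ⟨hα t ht, mem_univ _⟩)
      (fun t _ => ⟨h.2 (α 0) t, mem_univ _⟩) ?_ ht
  exact (h.1 _).symm

/-- Uniqueness of global integral curves. -/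
theorem IsFlow.eq_of_global {F : E → E} {K : ℝ≥0} (hK : LipschitzWith K F) {fl : ℝ → E → E}
    (h : IsFlow F fl) {α : ℝ → E} (hα : ∀ t, HasDerivAt α (F (α t)) t) (t : ℝ) :
    α t = fl t (α 0) :=
  h.eq_of_Ioo hK (a := -(|t| + 1)) (b := |t| + 1) ⟨by have := abs_nonneg t; linarith, by positivity⟩
    (fun t _ => hα t) t (by rw [mem_Ioo, ← abs_lt]; exact lt_add_one _)

/-- Two flows of a Lipschitz field agree. -/
theorem IsFlow.unique {F : E → E} {K : ℝ≥0} (hK : LipschitzWith K F) {fl fl' : ℝ → E → E}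
    (h : IsFlow F fl) (h' : IsFlow F fl') : fl = fl' := by
  funext t x
  have := h'.eq_of_global hK (α := fun r => fl r x) (h.2 x) t
  simpa [h.1] using this

/-- Group law. -/
theorem IsFlow.add {F : E → E} {K : ℝ≥0} (hK : LipschitzWith K F) {fl : ℝ → E → E}
    (h : IsFlow F fl) (s t : ℝ) (x : E) : fl (s + t) x = fl s (fl t x) := by
  have := h.eq_of_global hK (α := fun r => fl (r + t) x)
    (fun r => by
      have h1 := (h.2 x (r + t)).comp_add_const r t
      exact h1) s
  simpa using this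

theorem IsFlow.neg_apply {F : E → E} {K : ℝ≥0} (hK : LipschitzWith K F) {fl : ℝ → E → E}
    (h : IsFlow F fl) (t : ℝ) (x : E) : fl (-t) (fl t x) = x := by
  rw [← h.add hK, neg_add_cancel, h.1]

theorem IsFlow.apply_neg {F : E → E} {K : ℝ≥0} (hK : LipschitzWith K F) {fl : ℝ → E → E}
    (h : IsFlow F fl) (t : ℝ) (x : E) : fl t (fl (-t) x) = x := by
  rw [← h.add hK, add_neg_cancel, h.1]

/-- Zeros of the field are fixed points. -/
theorem IsFlow.eq_self_of_eq_zero {F : E → E} {K : ℝ≥0} (hK : LipschitzWith K F)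
    {fl : ℝ → E → E} (h : IsFlow F fl) {x : E} (hx : F x = 0) (t : ℝ) : fl t x = x := by
  have := h.eq_of_global hK (α := fun _ => x) (fun r => by rw [hx]; exact hasDerivAt_const r x) t
  exact this.symm

end basic

section smooth
variable {E : Type u} [NormedAddCommGroup E] [NormedSpace ℝ E] [FiniteDimensional ℝ E]

/-- a smooth compactly supported cutoff equal to `1` on a ball. -/
theorem exists_bump_ball (R : ℝ) (hR : 0 < R) :
    ∃ χ : E → ℝ, ContDiff ℝ ∞ χ ∧ HasCompactSupport χ ∧ ∀ w, ‖w‖ ≤ R → χ w = 1 := by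
  let f : ContDiffBump (0 : E) := ⟨R, R + 1, hR, by linarith⟩
  refine ⟨f, f.contDiff, f.hasCompactSupport, fun w hw => ?_⟩
  exact f.one_of_mem_closedBall (by simpa using hw)

theorem exists_isFlow (F : E → E) (hF : ContDiff ℝ ∞ F) (hsupp : HasCompactSupport F) :
    ∃ fl, IsFlow F fl := by
  obtain ⟨fl, Y, K, hK, hYn, h0, h1, -⟩ := exists_flow_C1 F (hF.of_le (WithTop.coe_le_coe.2 le_top)) hsupp
  exact ⟨fl, h0, h1⟩

theorem exists_lipschitz (F : E → E) (hF : ContDiff ℝ ∞ F) (hsupp : HasCompactSupport F) :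
    ∃ K : ℝ≥0, LipschitzWith K F :=
  hF.lipschitzWith_of_hasCompactSupport hsupp (by simp)

/-- The truncated tangent field. -/
noncomputable def tangentField (F : E → E) (χ : E → ℝ) : E × E → E × E :=
  fun p => χ p.2 • (F p.1, fderiv ℝ F p.1 p.2)

theorem contDiff_tangentField {F : E → E} (hF : ContDiff ℝ ∞ F) {χ : E → ℝ}
    (hχ : ContDiff ℝ ∞ χ) : ContDiff ℝ ∞ (tangentField F χ) := by
  unfold tangentField
  have h1 : ContDiff ℝ ∞ (fderiv ℝ F) := hF.fderiv_right (by simp)
  exact (hχ.comp contDiff_snd).smul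
    ((hF.comp contDiff_fst).prodMk ((h1.comp contDiff_fst).clm_apply contDiff_snd))

theorem hasCompactSupport_tangentField {F : E → E} (hF : HasCompactSupport F) {χ : E → ℝ}
    (hχ : HasCompactSupport χ) : HasCompactSupport (tangentField F χ) := by
  refine HasCompactSupport.intro (K := tsupport F ×ˢ tsupport χ) (hF.prod hχ) fun p hp => ?_
  rw [mem_prod, not_and_or] at hp
  unfold tangentField
  rcases hp with hp | hp
  · rw [image_eq_zero_of_notMem_tsupport hp, fderiv_of_notMem_tsupport ℝ hp]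
    simp
  · rw [image_eq_zero_of_notMem_tsupport hp, zero_smul]

/-- The time-`s` map of the flow of a compactly supported smooth field is `C^n`. -/
theorem contDiff_flow_time (n : ℕ) : ∀ {E : Type u} [NormedAddCommGroup E] [NormedSpace ℝ E]
    [FiniteDimensional ℝ E] (F : E → E), ContDiff ℝ ∞ F → HasCompactSupport F →
    ∀ fl, IsFlow F fl → ∀ s, ContDiff ℝ n (fl s) := by
  induction n with
  | zero =>
    intro E _ _ _ F hF hsupp fl hfl s
    obtain ⟨fl', Y, K, hK, hYn, h0, h1, hc, hY0, hY, hd⟩ :=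
      exists_flow_C1 F (hF.of_le (WithTop.coe_le_coe.2 le_top)) hsupp
    obtain rfl : fl = fl' := hfl.unique hK ⟨h0, h1⟩
    rw [Nat.cast_zero, contDiff_zero, continuous_iff_continuousAt]
    exact fun x => (hd x s).hasFDerivAt.continuousAt
  | succ n ih =>
    intro E _ _ _ F hF hsupp fl hfl s
    obtain ⟨fl', Y, K, hK, hYn, h0, h1, hc, hY0, hY, hd⟩ :=
      exists_flow_C1 F (hF.of_le (WithTop.coe_le_coe.2 le_top)) hsupp
    obtain rfl : fl = fl' := hfl.unique hK ⟨h0, h1⟩
    rw [Nat.cast_succ, contDiff_succ_iff_hasFDerivAt]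
    refine ⟨Y s, ?_, fun x => (hd x s).hasFDerivAt⟩
    rw [contDiff_clm_apply_iff]
    intro v
    -- the truncated tangent flow
    set T : ℝ := |s| + 1 with hT
    have hTpos : 0 < T := by positivity
    set R : ℝ := Real.exp (K * T) * ‖v‖ + 1 with hR
    have hRpos : 0 < R := by positivity
    obtain ⟨χ, hχ, hχs, hχ1⟩ := exists_bump_ball (E := E) R hRpos
    have hG := contDiff_tangentField hF hχ
    have hGs := hasCompactSupport_tangentField hsupp hχs
    obtain ⟨flG, hflG⟩ := exists_isFlow _ hG hGs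
    obtain ⟨KG, hKG⟩ := exists_lipschitz _ hG hGs
    have key : ∀ x, (flG s (x, v)).2 = Y s x v := by
      intro x
      have hcurve : ∀ t ∈ Ioo (-T) T, HasDerivAt (fun r => (fl r x, Y r x v))
          (tangentField F χ (fl t x, Y t x v)) t := by
        intro t ht
        have hb : ‖Y t x v‖ ≤ R := by
          have h2 : |t| ≤ T := (abs_lt.mpr ht).le
          calc ‖Y t x v‖ ≤ ‖Y t x‖ * ‖v‖ := (Y t x).le_opNorm v
            _ ≤ Real.exp (K * T) * ‖v‖ := by
                refine mul_le_mul_of_nonneg_right ((hYn x t).trans ?_) (norm_nonneg _)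
                exact Real.exp_le_exp.mpr (mul_le_mul_of_nonneg_left h2 K.2)
            _ ≤ R := by rw [hR]; linarith
        have e : tangentField F χ (fl t x, Y t x v)
            = (F (fl t x), ((fderiv ℝ F (fl t x)).comp (Y t x)) v) := by
          simp [tangentField, hχ1 _ hb]
        rw [e]
        have h3 := (hY x t).clm_apply (hasDerivAt_const t v)
        simp only [map_zero, add_zero] at h3
        exact (h1 x t).prodMk h3
      have := hflG.eq_of_Ioo hKG (α := fun r => (fl r x, Y r x v)) (a := -T) (b := T)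
        ⟨by linarith, hTpos⟩ hcurve s (by rw [mem_Ioo, ← abs_lt, hT]; exact lt_add_one _)
      simp only [h0, hY0, ContinuousLinearMap.id_apply] at this
      rw [← this]
    have h4 : ContDiff ℝ n (fun x => (flG s (x, v)).2) :=
      contDiff_snd.comp ((ih _ hG hGs flG hflG s).comp (contDiff_id.prodMk contDiff_const))
    exact (funext key) ▸ h4

/-- The field on `ℝ × E` whose time-one map encodes the flow of `F` at all (bounded) times. -/
noncomputable def timeField (F : E → E) (χ : ℝ → ℝ) : ℝ × E → ℝ × E :=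
  fun p => (0, (χ p.1 * p.1) • F p.2)

theorem contDiff_timeField {F : E → E} (hF : ContDiff ℝ ∞ F) {χ : ℝ → ℝ}
    (hχ : ContDiff ℝ ∞ χ) : ContDiff ℝ ∞ (timeField F χ) := by
  unfold timeField
  exact contDiff_const.prodMk
    (((hχ.comp contDiff_fst).mul contDiff_fst).smul (hF.comp contDiff_snd))

theorem hasCompactSupport_timeField {F : E → E} (hF : HasCompactSupport F) {χ : ℝ → ℝ}
    (hχ : HasCompactSupport χ) : HasCompactSupport (timeField F χ) := by
  refine HasCompactSupport.intro (K := tsupport χ ×ˢ tsupport F) (hχ.prod hF) fun p hp => ?_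
  rw [mem_prod, not_and_or] at hp
  unfold timeField
  rcases hp with hp | hp
  · rw [image_eq_zero_of_notMem_tsupport hp]
    simp
  · rw [image_eq_zero_of_notMem_tsupport hp]
    simp

/-- **Smooth dependence.** The flow of a compactly supported smooth vector field is jointly smooth
in time and starting point. -/
theorem IsFlow.contDiff {F : E → E} (hF : ContDiff ℝ ∞ F) (hsupp : HasCompactSupport F)
    {fl : ℝ → E → E} (hfl : IsFlow F fl) : ContDiff ℝ ∞ (fun p : ℝ × E => fl p.1 p.2) := by
  rw [contDiff_infty]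
  intro n
  rw [contDiff_iff_contDiffAt]
  rintro ⟨τ₀, x₀⟩
  set R : ℝ := |τ₀| + 1 with hR
  have hRpos : 0 < R := by positivity
  obtain ⟨χ, hχ, hχs, hχ1⟩ := exists_bump_ball (E := ℝ) R hRpos
  have hH := contDiff_timeField hF hχ
  have hHs := hasCompactSupport_timeField hsupp hχs
  obtain ⟨flH, hflH⟩ := exists_isFlow _ hH hHs
  obtain ⟨KH, hKH⟩ := exists_lipschitz _ hH hHs
  have key : ∀ τ x, (flH 1 (τ, x)).2 = fl (χ τ * τ) x := by
    intro τ x
    have hcurve : ∀ t, HasDerivAt (fun r => (τ, fl ((χ τ * τ) * r) x))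
        (timeField F χ (τ, fl ((χ τ * τ) * t) x)) t := by
      intro t
      have h1 : HasDerivAt (fun r : ℝ => (χ τ * τ) * r) (χ τ * τ) t := by
        simpa using (hasDerivAt_id t).const_mul (χ τ * τ)
      have h2 := (hfl.2 x ((χ τ * τ) * t)).scomp t h1
      exact (hasDerivAt_const t τ).prodMk h2
    have := hflH.eq_of_global hKH (α := fun r => (τ, fl ((χ τ * τ) * r) x)) hcurve 1
    simp only [mul_one, mul_zero, hfl.1] at this
    rw [← this]
  have h4 : ContDiff ℝ n (fun p : ℝ × E => (flH 1 p).2) :=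
    contDiff_snd.comp (contDiff_flow_time n _ hH hHs flH hflH 1)
  refine h4.contDiffAt.congr_of_eventuallyEq ?_
  have hopen : IsOpen {p : ℝ × E | |p.1| < R} :=
    isOpen_lt (continuous_abs.comp continuous_fst) continuous_const
  filter_upwards [hopen.mem_nhds (show |τ₀| < R by rw [hR]; exact lt_add_one _)] with p hp
  rw [show (flH 1 p).2 = fl (χ p.1 * p.1) p.2 from key p.1 p.2,
    hχ1 p.1 (by simpa using (le_of_lt hp)), one_mul]

/-- **Existence of a smooth global flow** for a compactly supported smooth vector field on a finite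
dimensional space. -/
theorem exists_smooth_flow (F : E → E) (hF : ContDiff ℝ ∞ F) (hsupp : HasCompactSupport F) :
    ∃ fl : ℝ → E → E, IsFlow F fl ∧ ContDiff ℝ ∞ (fun p : ℝ × E => fl p.1 p.2) ∧
      (∀ s t x, fl (s + t) x = fl s (fl t x)) ∧
      (∀ (α : ℝ → E) (a b : ℝ), (0 : ℝ) ∈ Ioo a b → (∀ t ∈ Ioo a b, HasDerivAt α (F (α t)) t) →
        ∀ t ∈ Ioo a b, α t = fl t (α 0)) := by
  obtain ⟨fl, hfl⟩ := exists_isFlow F hF hsupp
  obtain ⟨K, hK⟩ := exists_lipschitz F hF hsupp
  exact ⟨fl, hfl, hfl.contDiff hF hsupp, hfl.add hK, fun α a b h0 hα => hfl.eq_of_Ioo hK h0 hα⟩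

/-- Each time-`s` map is differentiable. -/
theorem IsFlow.differentiable {F : E → E} (hF : ContDiff ℝ ∞ F) (hsupp : HasCompactSupport F)
    {fl : ℝ → E → E} (hfl : IsFlow F fl) (s : ℝ) : Differentiable ℝ (fl s) :=
  (contDiff_flow_time 1 F hF hsupp fl hfl s).differentiable (by simp)

/-- **Variational equation**, operator form. -/
theorem IsFlow.hasDerivAt_fderiv {F : E → E} (hF : ContDiff ℝ ∞ F) (hsupp : HasCompactSupport F)
    {fl : ℝ → E → E} (hfl : IsFlow F fl) (x : E) (t : ℝ) :
    HasDerivAt (fun s => fderiv ℝ (fl s) x)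
      ((fderiv ℝ F (fl t x)).comp (fderiv ℝ (fl t) x)) t := by
  obtain ⟨fl', Y, K, hK, hYn, h0, h1, hc, hY0, hY, hd⟩ :=
    exists_flow_C1 F (hF.of_le (WithTop.coe_le_coe.2 le_top)) hsupp
  obtain rfl : fl = fl' := hfl.unique hK ⟨h0, h1⟩
  have e : ∀ s, fderiv ℝ (fl s) x = Y s x := fun s => (hd x s).hasFDerivAt.fderiv
  simp only [e]
  exact hY x t

/-- **Variational equation**, applied to a vector. -/
theorem IsFlow.hasDerivAt_fderiv_apply {F : E → E} (hF : ContDiff ℝ ∞ F)
    (hsupp : HasCompactSupport F) {fl : ℝ → E → E} (hfl : IsFlow F fl) (x q : E) (t : ℝ) :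
    HasDerivAt (fun s => fderiv ℝ (fl s) x q)
      (fderiv ℝ F (fl t x) (fderiv ℝ (fl t) x q)) t := by
  have h3 := (hfl.hasDerivAt_fderiv hF hsupp x t).clm_apply (hasDerivAt_const t q)
  simpa using h3

theorem IsFlow.fderiv_zero {F : E → E} {fl : ℝ → E → E} (hfl : IsFlow F fl) (x : E) :
    fderiv ℝ (fl 0) x = ContinuousLinearMap.id ℝ E := by
  have : fl 0 = id := funext hfl.1
  rw [this]
  exact fderiv_id

/-- Uniqueness of integral curves on an interval around an arbitrary time `t₀`. -/
theorem IsFlow.eq_of_Ioo' {F : E → E} {K : ℝ≥0} (hK : LipschitzWith K F) {fl : ℝ → E → E}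
    (h : IsFlow F fl) {α : ℝ → E} {a b t₀ : ℝ} (h0 : t₀ ∈ Ioo a b)
    (hα : ∀ t ∈ Ioo a b, HasDerivAt α (F (α t)) t) :
    ∀ t ∈ Ioo a b, α t = fl (t - t₀) (α t₀) := by
  intro t ht
  have := h.eq_of_Ioo hK (α := fun r => α (r + t₀)) (a := a - t₀) (b := b - t₀)
    ⟨by linarith [h0.1], by linarith [h0.2]⟩
    (fun r hr => (hα (r + t₀) ⟨by linarith [hr.1], by linarith [hr.2]⟩).comp_add_const r t₀)
    (t - t₀) ⟨by linarith [ht.1], by linarith [ht.2]⟩
  simpa using this

end smooth

end ODE
end Claimed.Agent.R213
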