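import Mathlib

/-! # Row 213, ODE layer, part 1: flows of compactly supported C^2 vector fields are strictly
differentiable in the starting point, with derivative the solution of the variational equation.
(Adapted from the row 211 file `R211/ODE/Main.lean`, with the norm bound on the derivative and the
Lipschitz constant exported.) No dependencies. -/

set_option autoImplicit false

namespace Claimed.Agent.R213
namespace ODE

open Set Filter Topology Metric
open scoped NNReal

section general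
variable {W : Type*} [NormedAddCommGroup W] [NormedSpace ℝ W]

/-- two-sided Gronwall inequality. -/
theorem gronwall_two_sided {f f' : ℝ → W} {K ε T : ℝ} (hf : ∀ s, HasDerivAt f (f' s) s)
    (hb : ∀ s, |s| ≤ T → ‖f' s‖ ≤ K * ‖f s‖ + ε) :
    ∀ s, |s| ≤ T → ‖f s‖ ≤ gronwallBound ‖f 0‖ K ε |s| := by
  have key : ∀ (g g' : ℝ → W), (∀ s, HasDerivAt g (g' s) s) →
      (∀ s, |s| ≤ T → ‖g' s‖ ≤ K * ‖g s‖ + ε) →
      ∀ s, 0 ≤ s → s ≤ T → ‖g s‖ ≤ gronwallBound ‖g 0‖ K ε s := by
    intro g g' hg hgb s hs0 hsT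
    have := norm_le_gronwallBound_of_norm_deriv_right_le (f := g) (f' := g') (δ := ‖g 0‖)
      (K := K) (ε := ε) (a := 0) (b := s)
      (fun x _ => (hg x).continuousAt.continuousWithinAt)
      (fun x _ => (hg x).hasDerivWithinAt) le_rfl
      (fun x hx => hgb x (by rw [abs_of_nonneg hx.1]; exact hx.2.le.trans hsT)) s ⟨hs0, le_rfl⟩
    simpa using this
  intro s hs
  rcases le_total 0 s with h0 | h0
  · rw [abs_of_nonneg h0] at hs ⊢
    exact key f f' hf hb s h0 hs
  · rw [abs_of_nonpos h0] at hs ⊢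
    have := key (fun r => f (-r)) (fun r => - f' (-r))
      (fun r => by
        have h := (hf (-r)).scomp r (hasDerivAt_neg' r)
        simp only [neg_smul, one_smul] at h
        exact h)
      (fun r hr => by simpa using hb (-r) (by simpa using hr)) (-s) (by linarith) hs
    simpa using this

theorem gronwallBound_zero_eq (K ε x : ℝ) :
    gronwallBound 0 K ε x = ε * gronwallBound 0 K 1 x := by
  unfold gronwallBound
  split_ifs <;> ring

theorem gronwallBound_one_nonneg {K x : ℝ} (hK : 0 ≤ K) (hx : 0 ≤ x) :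
    0 ≤ gronwallBound 0 K 1 x := by
  have := gronwallBound_mono (δ := 0) (ε := 1) le_rfl zero_le_one hK hx
  simpa [gronwallBound_x0] using this

/-- global existence for a time dependent field which is globally Lipschitz in space and bounded on
bounded time intervals. -/
theorem exists_global [CompleteSpace W] {v : ℝ → W → W} {K : ℝ≥0}
    (hb : ∀ T : ℝ, ∃ L : ℝ≥0, ∀ t, |t| ≤ T → ∀ y, ‖v t y‖ ≤ L)
    (hl : ∀ t, LipschitzWith K (v t)) (hc : ∀ y, Continuous fun t => v t y) (y0 : W) :
    ∃ α : ℝ → W, α 0 = y0 ∧ ∀ t, HasDerivAt α (v t (α t)) t := by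
  have hloc : ∀ T : ℝ, 0 < T →
      ∃ α : ℝ → W, α 0 = y0 ∧ ∀ t ∈ Ioo (-T) T, HasDerivAt α (v t (α t)) t := by
    intro T hT
    obtain ⟨L, hL⟩ := hb T
    have h0 : (0 : ℝ) ∈ Icc (-T) T := ⟨by linarith, hT.le⟩
    have hPL : IsPicardLindelof v (tmin := -T) (tmax := T) ⟨0, h0⟩ y0 (L * ⟨T, hT.le⟩) 0 L K :=
      { lipschitzOnWith := fun t _ => (hl t).lipschitzOnWith
        continuousOn := fun y _ => (hc y).continuousOn
        norm_le := fun t ht y _ => hL t (abs_le.mpr ht) y
        mul_max_le := by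
          simp only [sub_zero, zero_sub, neg_neg, max_self, NNReal.coe_zero]
          exact le_of_eq rfl }
    obtain ⟨α, hα0, hα⟩ := hPL.exists_eq_forall_mem_Icc_hasDerivWithinAt₀
    exact ⟨α, hα0, fun t ht =>
      (hα t (Ioo_subset_Icc_self ht)).hasDerivAt (Icc_mem_nhds ht.1 ht.2)⟩
  choose! β hβ0 hβ using hloc
  have heq : ∀ T T', 0 < T → T ≤ T' → EqOn (β T) (β T') (Ioo (-T) T) := by
    intro T T' hT hTT'
    refine ODE_solution_unique_of_mem_Ioo (v := v) (s := fun _ => univ) (K := K) (t₀ := 0)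
      (fun t _ => (hl t).lipschitzOnWith) ⟨by linarith, hT⟩
      (fun t ht => ⟨hβ T hT t ht, mem_univ _⟩)
      (fun t ht => ⟨hβ T' (hT.trans_le hTT') t ⟨by linarith [ht.1], by linarith [ht.2]⟩,
        mem_univ _⟩) ?_
    rw [hβ0 T hT, hβ0 T' (hT.trans_le hTT')]
  have hpos : ∀ t : ℝ, 0 < |t| + 1 := fun t => by positivity
  have hmem : ∀ t : ℝ, t ∈ Ioo (-(|t| + 1)) (|t| + 1) := fun t => by
    rw [mem_Ioo, ← abs_lt]; exact lt_add_one _
  refine ⟨fun t => β (|t| + 1) t, hβ0 _ (hpos 0), fun t => ?_⟩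
  have hev : (fun s => β (|s| + 1) s) =ᶠ[𝓝 t] β (|t| + 1) := by
    filter_upwards [isOpen_Ioo.mem_nhds (hmem t)] with s hs
    rcases le_total (|s| + 1) (|t| + 1) with h | h
    · exact heq _ _ (hpos s) h (hmem s)
    · exact (heq _ _ (hpos t) h hs).symm
  exact (hβ _ (hpos t) t (hmem t)).congr_of_eventuallyEq hev

/-! ### radial retraction -/

/-- radial retraction onto the ball of radius `R`. -/
noncomputable def retr (R : ℝ) (y : W) : W := (min 1 (R / ‖y‖)) • y

theorem retr_coef_nonneg {R : ℝ} (hR : 0 ≤ R) (y : W) : 0 ≤ min 1 (R / ‖y‖) :=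
  le_min zero_le_one (div_nonneg hR (norm_nonneg y))

theorem retr_coef_mul {R : ℝ} (hR : 0 ≤ R) (y : W) : min 1 (R / ‖y‖) * ‖y‖ = min ‖y‖ R := by
  rcases eq_or_ne ‖y‖ 0 with h | h
  · rw [h]; simp [hR]
  · rw [min_mul_of_nonneg _ _ (norm_nonneg y), one_mul, div_mul_cancel₀ _ h]

theorem norm_retr {R : ℝ} (hR : 0 ≤ R) (y : W) : ‖retr R y‖ = min ‖y‖ R := by
  rw [retr, norm_smul, Real.norm_of_nonneg (retr_coef_nonneg hR y), retr_coef_mul hR]

theorem norm_retr_le {R : ℝ} (hR : 0 ≤ R) (y : W) : ‖retr R y‖ ≤ ‖y‖ := by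
  rw [norm_retr hR]; exact min_le_left _ _

theorem norm_retr_le' {R : ℝ} (hR : 0 ≤ R) (y : W) : ‖retr R y‖ ≤ R := by
  rw [norm_retr hR]; exact min_le_right _ _

theorem retr_eq_self {R : ℝ} {y : W} (h : ‖y‖ ≤ R) : retr R y = y := by
  rcases eq_or_ne y 0 with h0 | h0
  · simp [retr, h0]
  · have : 0 < ‖y‖ := norm_pos_iff.mpr h0
    rw [retr, min_eq_left ((one_le_div this).mpr h), one_smul]

theorem lipschitzWith_retr {R : ℝ} (hR : 0 ≤ R) : LipschitzWith 3 (retr R : W → W) := by
  refine LipschitzWith.of_dist_le_mul fun y z => ?_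
  rw [dist_eq_norm, dist_eq_norm]
  show _ ≤ (3 : ℝ) * _
  rcases eq_or_ne y 0 with h0 | h0
  · have : retr R y = 0 := by simp [retr, h0]
    rw [this, h0, zero_sub, zero_sub, norm_neg, norm_neg]
    have := norm_retr_le hR z
    have := norm_nonneg z
    linarith
  · have ha : ‖y‖ ≠ 0 := norm_ne_zero_iff.mpr h0
    set m := min 1 (R / ‖y‖) with hm
    set m' := min 1 (R / ‖z‖) with hm'
    have hm0 : 0 ≤ m := retr_coef_nonneg hR y
    have hm1 : m ≤ 1 := min_le_left _ _
    have e : retr R y - retr R z = m • (y - z) + (m - m') • z := by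
      simp only [retr, ← hm, ← hm', smul_sub, sub_smul]; abel
    have e2 : (m - m') * ‖z‖ = m * (‖z‖ - ‖y‖) + (min ‖y‖ R - min ‖z‖ R) := by
      rw [← retr_coef_mul hR y, ← retr_coef_mul hR z]; ring
    have h1 : |‖z‖ - ‖y‖| ≤ ‖y - z‖ := by
      rw [abs_sub_comm]; exact abs_norm_sub_norm_le y z
    have h2 : |min ‖y‖ R - min ‖z‖ R| ≤ ‖y - z‖ := by
      refine (abs_min_sub_min_le_max _ _ _ _).trans ?_
      rw [sub_self, abs_zero, max_eq_left (abs_nonneg _)]
      exact abs_norm_sub_norm_le y z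
    have h3 : ‖(m - m') • z‖ ≤ 2 * ‖y - z‖ := by
      rw [norm_smul, Real.norm_eq_abs, ← abs_of_nonneg (norm_nonneg z), ← abs_mul, e2]
      refine (abs_add_le _ _).trans ?_
      rw [abs_mul, abs_of_nonneg hm0]
      have : m * |‖z‖ - ‖y‖| ≤ 1 * ‖y - z‖ := mul_le_mul hm1 h1 (abs_nonneg _) zero_le_one
      linarith
    have h4 : ‖m • (y - z)‖ ≤ ‖y - z‖ := by
      rw [norm_smul, Real.norm_of_nonneg hm0]
      exact mul_le_of_le_one_left (norm_nonneg _) hm1
    rw [e]
    refine (norm_add_le _ _).trans ?_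
    linarith

theorem continuous_retr_left (y : W) : Continuous fun R : ℝ => retr R y := by
  unfold retr
  exact (continuous_const.min (continuous_id.div_const _)).smul continuous_const

end general

section main
variable {E : Type*} [NormedAddCommGroup E] [NormedSpace ℝ E]

/-- first order Taylor remainder for a map with Lipschitz derivative. -/
theorem taylor_le {F : E → E} (hd : Differentiable ℝ F) {L2 : ℝ≥0}
    (hL2 : LipschitzWith L2 (fderiv ℝ F)) (a b : E) :
    ‖F b - F a - fderiv ℝ F a (b - a)‖ ≤ L2 * ‖b - a‖ ^ 2 := by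
  have := (convex_closedBall a ‖b - a‖).norm_image_sub_le_of_norm_hasFDerivWithin_le'
    (f := F) (f' := fderiv ℝ F) (φ := fderiv ℝ F a) (C := L2 * ‖b - a‖) (x := a) (y := b)
    (fun x _ => (hd x).hasFDerivAt.hasFDerivWithinAt)
    (fun x hx => by
      have h := hL2.dist_le_mul x a
      rw [dist_eq_norm, dist_eq_norm] at h
      refine h.trans (mul_le_mul_of_nonneg_left ?_ L2.2)
      simpa [dist_eq_norm] using hx)
    (mem_closedBall_self (norm_nonneg _)) (by simp [dist_eq_norm])
  calc _ ≤ L2 * ‖b - a‖ * ‖b - a‖ := this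
    _ = _ := by ring

/-- a quadratic remainder estimate gives the derivative. -/
theorem hasFDerivAt_of_sq_le {f : E → E} {A : E →L[ℝ] E} {x : E} {C : ℝ}
    (h : ∀ y, ‖f y - f x - A (y - x)‖ ≤ C * ‖y - x‖ ^ 2) : HasFDerivAt f A x := by
  rw [hasFDerivAt_iff_isLittleO, Asymptotics.isLittleO_iff]
  intro c hc
  have hC : 0 ≤ |C| + 1 := by positivity
  have hpos : 0 < c / (|C| + 1) := by positivity
  filter_upwards [Metric.ball_mem_nhds x hpos] with y hy
  rw [mem_ball, dist_eq_norm] at hy
  calc ‖f y - f x - A (y - x)‖ ≤ C * ‖y - x‖ ^ 2 := h y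
    _ ≤ (|C| + 1) * ‖y - x‖ ^ 2 :=
        mul_le_mul_of_nonneg_right (by linarith [le_abs_self C]) (by positivity)
    _ = ((|C| + 1) * ‖y - x‖) * ‖y - x‖ := by ring
    _ ≤ c * ‖y - x‖ := by
        refine mul_le_mul_of_nonneg_right ?_ (norm_nonneg _)
        have := mul_le_mul_of_nonneg_left hy.le hC
        rwa [mul_div_cancel₀ _ (by positivity : (|C| + 1) ≠ 0)] at this

end main

end ODE

open Claimed.Agent.R213.ODE Set Filter Topology Metric
open scoped NNReal

/-- **Flow theorem.** -/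
theorem exists_flow_C1 {E : Type*} [NormedAddCommGroup E] [NormedSpace ℝ E]
    [FiniteDimensional ℝ E]
    (F : E → E) (hF : ContDiff ℝ 2 F) (hsupp : HasCompactSupport F) :
    ∃ (fl : ℝ → E → E) (Y : ℝ → E → E →L[ℝ] E) (K : ℝ≥0),
      LipschitzWith K F ∧ (∀ x s, ‖Y s x‖ ≤ Real.exp (K * |s|)) ∧
      (∀ x, fl 0 x = x) ∧
      (∀ x s, HasDerivAt (fun r => fl r x) (F (fl s x)) s) ∧
      Continuous (fun p : ℝ × E => fl p.1 p.2) ∧
      (∀ x, Y 0 x = ContinuousLinearMap.id ℝ E) ∧
      (∀ x s, HasDerivAt (fun r => Y r x) ((fderiv ℝ F (fl s x)).comp (Y s x)) s) ∧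
      (∀ x s, HasStrictFDerivAt (fl s) (Y s x) x) := by
  have : CompleteSpace E := FiniteDimensional.complete ℝ E
  obtain ⟨B0, hB0⟩ := hsupp.exists_bound_of_continuous hF.continuous
  obtain ⟨B, hB⟩ : ∃ B : ℝ≥0, ∀ y, ‖F y‖ ≤ B :=
    ⟨⟨max B0 0, le_max_right _ _⟩, fun y => (hB0 y).trans (le_max_left _ _)⟩
  obtain ⟨K, hK⟩ := hF.lipschitzWith_of_hasCompactSupport hsupp (by norm_num)
  have hd : Differentiable ℝ F := hF.differentiable (by norm_num)
  have hDF : ContDiff ℝ 1 (fderiv ℝ F) := hF.fderiv_right (by norm_num)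
  obtain ⟨L2, hL2⟩ := hDF.lipschitzWith_of_hasCompactSupport (hsupp.fderiv ℝ) one_ne_zero
  have hDFK : ∀ y, ‖fderiv ℝ F y‖ ≤ K := fun y => norm_fderiv_le_of_lipschitz ℝ hK
  have hK0 : (0 : ℝ) ≤ K := K.2
  have hL20 : (0 : ℝ) ≤ L2 := L2.2
  -- the flow
  have hex : ∀ x, ∃ α : ℝ → E, α 0 = x ∧ ∀ t, HasDerivAt α (F (α t)) t := fun x =>
    exists_global (v := fun _ => F) (K := K)
      (fun _ => ⟨B, fun t _ y => hB y⟩)
      (fun _ => hK) (fun _ => continuous_const) x
  choose fl hfl0 hfl using hex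
  have hflc : ∀ x, Continuous (fl x) := fun x =>
    continuous_iff_continuousAt.mpr fun t => (hfl x t).continuousAt
  -- Lipschitz dependence on the starting point
  have hlip : ∀ x y s, ‖fl x s - fl y s‖ ≤ ‖x - y‖ * Real.exp (K * |s|) := by
    intro x y s
    have := gronwall_two_sided (f := fun r => fl x r - fl y r)
      (f' := fun r => F (fl x r) - F (fl y r)) (K := K) (ε := 0) (T := |s|)
      (fun r => (hfl x r).sub (hfl y r))
      (fun r _ => by
        rw [add_zero]
        simpa [dist_eq_norm] using hK.dist_le_mul (fl x r) (fl y r)) s le_rfl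
    simpa [hfl0, gronwallBound_ε0] using this
  -- the variational equation, truncated
  have hexY : ∀ x, ∃ α : ℝ → (E →L[ℝ] E), α 0 = ContinuousLinearMap.id ℝ E ∧
      ∀ t, HasDerivAt α ((fderiv ℝ F (fl x t)).comp (retr (Real.exp (K * |t|)) (α t))) t := by
    intro x
    refine exists_global
      (v := fun t Z => (fderiv ℝ F (fl x t)).comp (retr (Real.exp (K * |t|)) Z)) (K := K * 3)
      (fun T => ⟨K * ⟨Real.exp (K * T), (Real.exp_pos _).le⟩, fun t ht Z => ?_⟩)
      (fun t => LipschitzWith.of_dist_le_mul fun Z Z' => ?_) (fun Z => ?_) _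
    · refine (ContinuousLinearMap.opNorm_comp_le _ _).trans ?_
      refine mul_le_mul (hDFK _) ((norm_retr_le' (Real.exp_pos _).le Z).trans ?_)
        (norm_nonneg _) hK0
      exact Real.exp_le_exp.mpr (mul_le_mul_of_nonneg_left ht hK0)
    · rw [dist_eq_norm, dist_eq_norm, ← ContinuousLinearMap.comp_sub]
      refine (ContinuousLinearMap.opNorm_comp_le _ _).trans ?_
      have h3 := (lipschitzWith_retr (W := E →L[ℝ] E) (Real.exp_pos (K * |t|)).le).dist_le_mul Z Z'
      rw [dist_eq_norm, dist_eq_norm] at h3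
      calc _ ≤ (K : ℝ) * ((3 : ℝ≥0) * ‖Z - Z'‖) :=
            mul_le_mul (hDFK _) h3 (norm_nonneg _) hK0
        _ = _ := by push_cast; ring
    · exact ((hDF.continuous.comp (hflc x))).clm_comp
        ((continuous_retr_left Z).comp
          (Real.continuous_exp.comp (continuous_const.mul continuous_abs)))
  choose Y hY0 hY' using hexY
  have hYn : ∀ x s, ‖Y x s‖ ≤ Real.exp (K * |s|) := by
    intro x s
    have := gronwall_two_sided (f := Y x)
      (f' := fun t => (fderiv ℝ F (fl x t)).comp (retr (Real.exp (K * |t|)) (Y x t)))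
      (K := K) (ε := 0) (T := |s|) (hY' x)
      (fun r _ => by
        rw [add_zero]
        exact (ContinuousLinearMap.opNorm_comp_le _ _).trans
          (mul_le_mul (hDFK _) (norm_retr_le (Real.exp_pos _).le _) (norm_nonneg _) hK0)) s le_rfl
    rw [hY0, gronwallBound_ε0] at this
    refine this.trans ?_
    exact mul_le_of_le_one_left (Real.exp_pos _).le ContinuousLinearMap.norm_id_le
  have hY : ∀ x t, HasDerivAt (Y x) ((fderiv ℝ F (fl x t)).comp (Y x t)) t := by
    intro x t
    have := hY' x t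
    rwa [retr_eq_self (hYn x t)] at this
  -- quadratic remainder estimate
  have hquad : ∀ x y s, ‖fl y s - fl x s - Y x s (y - x)‖ ≤
      (L2 * Real.exp (K * |s|) ^ 2 * gronwallBound 0 K 1 |s|) * ‖y - x‖ ^ 2 := by
    intro x y s
    have hder : ∀ r, HasDerivAt (fun r => fl y r - fl x r - Y x r (y - x))
        (F (fl y r) - F (fl x r) - ((fderiv ℝ F (fl x r)).comp (Y x r)) (y - x)) r := by
      intro r
      have h1 := (hY x r).clm_apply (hasDerivAt_const r (y - x))
      simp only [map_zero, add_zero] at h1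
      exact ((hfl y r).sub (hfl x r)).sub h1
    have := gronwall_two_sided (f := fun r => fl y r - fl x r - Y x r (y - x))
      (f' := fun r => F (fl y r) - F (fl x r) - ((fderiv ℝ F (fl x r)).comp (Y x r)) (y - x))
      (K := K) (ε := L2 * (‖y - x‖ * Real.exp (K * |s|)) ^ 2) (T := |s|) hder
      (fun r hr => by
        have e : F (fl y r) - F (fl x r) - ((fderiv ℝ F (fl x r)).comp (Y x r)) (y - x)
            = fderiv ℝ F (fl x r) (fl y r - fl x r - Y x r (y - x))
              + (F (fl y r) - F (fl x r) - fderiv ℝ F (fl x r) (fl y r - fl x r)) := by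
          simp only [map_sub, ContinuousLinearMap.comp_apply]
          abel
        rw [e]
        refine (norm_add_le _ _).trans (add_le_add ?_ ?_)
        · exact (ContinuousLinearMap.le_opNorm _ _).trans
            (mul_le_mul_of_nonneg_right (hDFK _) (norm_nonneg _))
        · refine (taylor_le hd hL2 _ _).trans (mul_le_mul_of_nonneg_left ?_ hL20)
          refine pow_le_pow_left₀ (norm_nonneg _) ((hlip y x r).trans ?_) 2
          exact mul_le_mul_of_nonneg_left
            (Real.exp_le_exp.mpr (mul_le_mul_of_nonneg_left hr hK0)) (norm_nonneg _)) s le_rfl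
    simp only [hfl0, hY0, ContinuousLinearMap.id_apply, sub_self, norm_zero] at this
    rw [gronwallBound_zero_eq] at this
    refine this.trans (le_of_eq ?_)
    ring
  -- Lipschitz dependence of `Y`
  have hYlip : ∀ x z s, ‖Y z s - Y x s‖ ≤
      (L2 * Real.exp (K * |s|) ^ 2 * gronwallBound 0 K 1 |s|) * ‖z - x‖ := by
    intro x z s
    have := gronwall_two_sided (f := fun r => Y z r - Y x r)
      (f' := fun r => (fderiv ℝ F (fl z r)).comp (Y z r) - (fderiv ℝ F (fl x r)).comp (Y x r))
      (K := K) (ε := L2 * (‖z - x‖ * Real.exp (K * |s|)) * Real.exp (K * |s|)) (T := |s|)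
      (fun r => (hY z r).sub (hY x r))
      (fun r hr => by
        have e : (fderiv ℝ F (fl z r)).comp (Y z r) - (fderiv ℝ F (fl x r)).comp (Y x r)
            = (fderiv ℝ F (fl z r)).comp (Y z r - Y x r)
              + (fderiv ℝ F (fl z r) - fderiv ℝ F (fl x r)).comp (Y x r) := by
          rw [ContinuousLinearMap.comp_sub, ContinuousLinearMap.sub_comp]
          abel
        have hexp : Real.exp (K * |r|) ≤ Real.exp (K * |s|) :=
          Real.exp_le_exp.mpr (mul_le_mul_of_nonneg_left hr hK0)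
        rw [e]
        refine (norm_add_le _ _).trans (add_le_add ?_ ?_)
        · exact (ContinuousLinearMap.opNorm_comp_le _ _).trans
            (mul_le_mul_of_nonneg_right (hDFK _) (norm_nonneg _))
        · refine (ContinuousLinearMap.opNorm_comp_le _ _).trans ?_
          refine mul_le_mul ?_ ((hYn x r).trans hexp) (norm_nonneg _) (by positivity)
          have h := hL2.dist_le_mul (fl z r) (fl x r)
          rw [dist_eq_norm, dist_eq_norm] at h
          refine h.trans (mul_le_mul_of_nonneg_left ((hlip z x r).trans ?_) hL20)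
          exact mul_le_mul_of_nonneg_left hexp (norm_nonneg _)) s le_rfl
    simp only [hY0, sub_self, norm_zero] at this
    rw [gronwallBound_zero_eq] at this
    refine this.trans (le_of_eq ?_)
    ring
  -- time Lipschitz
  have htime : ∀ x s s', ‖fl x s - fl x s'‖ ≤ B * |s - s'| := by
    intro x s s'
    have h := lipschitzWith_of_nnnorm_deriv_le (f := fl x) (C := B)
      (fun t => (hfl x t).differentiableAt)
      (fun t => by
        rw [(hfl x t).deriv]
        exact hB _)
    have := h.dist_le_mul s s'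
    rwa [dist_eq_norm, Real.dist_eq] at this
  refine ⟨fun s x => fl x s, fun s x => Y x s, K, hK, hYn, hfl0, hfl, ?_, hY0, hY, ?_⟩
  · rw [continuous_iff_continuousAt]
    rintro ⟨s0, x0⟩
    rw [ContinuousAt, tendsto_iff_dist_tendsto_zero]
    have hbound : ∀ p : ℝ × E, dist (fl p.2 p.1) (fl x0 s0) ≤
        B * |p.1 - s0| + ‖p.2 - x0‖ * Real.exp (K * |s0|) := by
      intro p
      rw [dist_eq_norm]
      calc ‖fl p.2 p.1 - fl x0 s0‖ = ‖(fl p.2 p.1 - fl p.2 s0) + (fl p.2 s0 - fl x0 s0)‖ := by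
            congr 1; abel
        _ ≤ _ := (norm_add_le _ _).trans (add_le_add (htime _ _ _) (hlip _ _ _))
    refine squeeze_zero (fun _ => dist_nonneg) hbound ?_
    have hc : Continuous fun p : ℝ × E =>
        B * |p.1 - s0| + ‖p.2 - x0‖ * Real.exp (K * |s0|) := by fun_prop
    have := hc.tendsto (s0, x0)
    simpa using this
  · intro x s
    refine hasStrictFDerivAt_of_hasFDerivAt_of_continuousAt (f' := fun y => Y y s)
      (Filter.Eventually.of_forall fun y => hasFDerivAt_of_sq_le (fun z => hquad y z s)) ?_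
    rw [ContinuousAt, tendsto_iff_dist_tendsto_zero]
    refine squeeze_zero
      (g := fun z => (L2 * Real.exp (K * |s|) ^ 2 * gronwallBound 0 K 1 |s|) * ‖z - x‖)
      (fun _ => dist_nonneg) (fun z => by rw [dist_eq_norm]; exact hYlip x z s) ?_
    have hc : Continuous fun z : E =>
        (L2 * Real.exp (K * |s|) ^ 2 * gronwallBound 0 K 1 |s|) * ‖z - x‖ := by fun_prop
    have := hc.tendsto x
    simpa using this

end Claimed.Agent.R213
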