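import Claimed.Agent.R213.ODE.SmoothFlow

/-! # Row 213, ODE layer, part 3: global smooth flow of a smooth vector field on a finite
dimensional space which is not compactly supported but satisfies an a-priori bound.

* `APriori X`: for all `R, T` there is `B` bounding every `X`-integral curve on a symmetric interval
  `Ioo (-c) c`, `c ≤ T`, which starts in the ball of radius `R`;
* `exists_global_smooth_flow`: then `X` has a global flow, jointly smooth, unique, with group law
  and variational equation.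
-/

set_option autoImplicit false

namespace Claimed.Agent.R213
namespace ODE

open Set Filter Topology Metric
open scoped NNReal ContDiff

universe u

variable {E : Type u} [NormedAddCommGroup E] [NormedSpace ℝ E] [FiniteDimensional ℝ E]

/-- A-priori bound for the integral curves of `X`. -/
def APriori (X : E → E) : Prop :=
  ∀ R T : ℝ, ∃ B : ℝ, ∀ (α : ℝ → E) (c : ℝ), 0 < c → c ≤ T → ‖α 0‖ ≤ R →
    (∀ t ∈ Ioo (-c) c, HasDerivAt α (X (α t)) t) → ∀ t ∈ Ioo (-c) c, ‖α t‖ ≤ B

/-- cut-off of a smooth field outside a ball. -/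
theorem exists_cut {X : E → E} (hX : ContDiff ℝ ∞ X) (ρ : ℝ) :
    ∃ F : E → E, ContDiff ℝ ∞ F ∧ HasCompactSupport F ∧ ∀ z, ‖z‖ ≤ ρ → F z = X z := by
  obtain ⟨χ, hχ, hχs, hχ1⟩ := exists_bump_ball (E := E) (max ρ 1) (by positivity)
  refine ⟨fun z => χ z • X z, hχ.smul hX, hχs.smul_right, fun z hz => ?_⟩
  simp only []
  rw [hχ1 z (hz.trans (le_max_left _ _)), one_smul]

/-- **Trapping lemma.** If `F = X` on the ball of radius `ρ > max B R`, and `B` bounds the
`X`-integral curves starting in the ball of radius `R` up to time `T`, then the `F`-flow lines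
starting in that ball stay in the ball of radius `B` up to time `T`. -/
theorem IsFlow.trapped {X F : E → E} {fl : ℝ → E → E} (hfl : IsFlow F fl) {R T B ρ : ℝ}
    (hB : ∀ (α : ℝ → E) (c : ℝ), 0 < c → c ≤ T → ‖α 0‖ ≤ R →
      (∀ t ∈ Ioo (-c) c, HasDerivAt α (X (α t)) t) → ∀ t ∈ Ioo (-c) c, ‖α t‖ ≤ B)
    (hρB : B < ρ) (hρR : R < ρ) (hFX : ∀ z, ‖z‖ ≤ ρ → F z = X z) {x : E} (hx : ‖x‖ ≤ R) :
    ∀ t, |t| < T → ‖fl t x‖ ≤ B := by
  set β : ℝ → E := fun t => fl t x with hβ
  have hβc : Continuous β :=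
    continuous_iff_continuousAt.mpr fun t => (hfl.2 x t).continuousAt
  have hβn : Continuous fun t => ‖β t‖ := hβc.norm
  set s : Set ℝ := {c | ∀ t, |t| < c → ‖β t‖ ≤ B} with hs
  intro t ht
  have hT : 0 ≤ T := (abs_nonneg t).trans ht.le
  have hclosed : IsClosed s := by
    have : s = ⋂ t : ℝ, {c | |t| < c → ‖β t‖ ≤ B} := by
      ext c; simp [hs]
    rw [this]
    exact isClosed_iInter fun t => isClosed_imp (isOpen_lt continuous_const continuous_id)
      isClosed_const
  have main : Icc 0 T ⊆ s := by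
    refine IsClosed.Icc_subset_of_forall_exists_gt (hclosed.inter isClosed_Icc) ?_ ?_
    · intro t ht
      exact absurd ht (not_lt.mpr (abs_nonneg t))
    · rintro c ⟨hcs, hc0, hcT⟩ y hy
      -- on the closed interval the norm is `< ρ`
      have hK : ∀ t, |t| ≤ c → ‖β t‖ < ρ := by
        intro t ht
        rcases hc0.eq_or_lt with h0 | h0
        · have : t = 0 := by
            rw [← h0] at ht
            exact abs_eq_zero.mp (le_antisymm ht (abs_nonneg t))
          rw [this, hβ]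
          simp only [hfl.1]
          exact hx.trans_lt hρR
        · have hsub : Icc (-c) c ⊆ {t | ‖β t‖ ≤ B} := by
            rw [← closure_Ioo (by linarith : -c ≠ c)]
            refine closure_minimal ?_ (isClosed_le hβn continuous_const)
            intro t ht
            exact hcs t (abs_lt.mpr ht)
          exact (hsub (abs_le.mp ht)).trans_lt hρB
      have hO : IsOpen {t | ‖β t‖ < ρ} := isOpen_lt hβn continuous_const
      obtain ⟨δ₁, hδ₁, h₁⟩ := Metric.isOpen_iff.mp hO c (hK c (by rw [abs_of_nonneg hc0]))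
      obtain ⟨δ₂, hδ₂, h₂⟩ := Metric.isOpen_iff.mp hO (-c)
        (hK (-c) (by rw [abs_neg, abs_of_nonneg hc0]))
      set c' : ℝ := min (c + min δ₁ δ₂) (min y T) with hc'
      have hcc' : c < c' := by
        rw [hc']
        refine lt_min (by have := lt_min hδ₁ hδ₂; linarith) (lt_min hy hcT)
      have hc'y : c' ≤ y := (min_le_right _ _).trans (min_le_left _ _)
      have hc'T : c' ≤ T := (min_le_right _ _).trans (min_le_right _ _)
      have hc'δ : c' ≤ c + min δ₁ δ₂ := min_le_left _ _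
      have hlt : ∀ t ∈ Ioo (-c') c', ‖β t‖ < ρ := by
        intro t ht
        rcases le_or_gt |t| c with h | h
        · exact hK t h
        · rcases lt_abs.mp h with h | h
          · refine h₁ ?_
            rw [mem_ball, Real.dist_eq, abs_of_pos (by linarith)]
            have := min_le_left δ₁ δ₂
            linarith [ht.2]
          · refine h₂ ?_
            rw [mem_ball, Real.dist_eq, abs_of_neg (by linarith)]
            have := min_le_right δ₁ δ₂
            linarith [ht.1]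
      refine ⟨c', ?_, hcc', hc'y⟩
      intro t ht
      refine hB β c' (hc0.trans_lt hcc') hc'T (by rw [hβ]; simpa [hfl.1] using hx) ?_ t
        (abs_lt.mp ht)
      intro r hr
      have := hfl.2 x r
      rw [hFX _ (hlt r hr).le] at this
      exact this
  exact main ⟨hT, le_rfl⟩ t ht

/-- Uniqueness of integral curves of a smooth field (no support condition). -/
theorem eqOn_of_contDiff {X : E → E} (hX : ContDiff ℝ ∞ X) {α β : ℝ → E} {a b : ℝ}
    (h0 : (0 : ℝ) ∈ Ioo a b) (hα : ∀ t ∈ Ioo a b, HasDerivAt α (X (α t)) t)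
    (hβ : ∀ t ∈ Ioo a b, HasDerivAt β (X (β t)) t) (h : α 0 = β 0) :
    ∀ t ∈ Ioo a b, α t = β t := by
  intro t ht
  -- a compact subinterval containing `0` and `t` in its interior
  set a' : ℝ := (a + min 0 t) / 2 with ha'
  set b' : ℝ := (b + max 0 t) / 2 with hb'
  have hmin : a < min 0 t := lt_min h0.1 ht.1
  have hmax : max 0 t < b := max_lt h0.2 ht.2
  have h1 : a < a' := by rw [ha']; linarith
  have h2 : a' < min 0 t := by rw [ha']; linarith
  have h3 : max 0 t < b' := by rw [hb']; linarith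
  have h4 : b' < b := by rw [hb']; linarith
  have hsub : Icc a' b' ⊆ Ioo a b := fun r hr => ⟨h1.trans_le hr.1, hr.2.trans_lt h4⟩
  have hαc : ContinuousOn α (Icc a' b') := fun r hr =>
    (hα r (hsub hr)).continuousAt.continuousWithinAt
  have hβc : ContinuousOn β (Icc a' b') := fun r hr =>
    (hβ r (hsub hr)).continuousAt.continuousWithinAt
  obtain ⟨C₁, hC₁⟩ := isCompact_Icc.exists_bound_of_continuousOn hαc
  obtain ⟨C₂, hC₂⟩ := isCompact_Icc.exists_bound_of_continuousOn hβc
  obtain ⟨F, hF, hFs, hFX⟩ := exists_cut hX (max C₁ C₂)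
  obtain ⟨fl, hfl⟩ := exists_isFlow F hF hFs
  obtain ⟨K, hK⟩ := exists_lipschitz F hF hFs
  have h0' : (0 : ℝ) ∈ Ioo a' b' :=
    ⟨h2.trans_le (min_le_left _ _), (le_max_left _ _).trans_lt h3⟩
  have ht' : t ∈ Ioo a' b' :=
    ⟨h2.trans_le (min_le_right _ _), (le_max_right _ _).trans_lt h3⟩
  have e1 := hfl.eq_of_Ioo hK h0' (α := α) (fun r hr => by
    have := hα r (hsub (Ioo_subset_Icc_self hr))
    rwa [← hFX _ ((hC₁ r (Ioo_subset_Icc_self hr)).trans (le_max_left _ _))] at this) t ht'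
  have e2 := hfl.eq_of_Ioo hK h0' (α := β) (fun r hr => by
    have := hβ r (hsub (Ioo_subset_Icc_self hr))
    rwa [← hFX _ ((hC₂ r (Ioo_subset_Icc_self hr)).trans (le_max_right _ _))] at this) t ht'
  rw [e1, e2, h]

/-- Uniqueness: an integral curve of a smooth field with a global flow is a flow line. -/
theorem IsFlow.eq_of_Ioo_of_contDiff {X : E → E} (hX : ContDiff ℝ ∞ X) {fl : ℝ → E → E}
    (hfl : IsFlow X fl) {α : ℝ → E} {a b t₀ : ℝ} (h0 : t₀ ∈ Ioo a b)
    (hα : ∀ t ∈ Ioo a b, HasDerivAt α (X (α t)) t) :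
    ∀ t ∈ Ioo a b, α t = fl (t - t₀) (α t₀) := by
  intro t ht
  have := eqOn_of_contDiff hX (α := fun r => α (r + t₀)) (β := fun r => fl r (α t₀))
    (a := a - t₀) (b := b - t₀) ⟨by linarith [h0.1], by linarith [h0.2]⟩
    (fun r hr => (hα (r + t₀) ⟨by linarith [hr.1], by linarith [hr.2]⟩).comp_add_const r t₀)
    (fun r _ => hfl.2 _ r) (by simp [hfl.1])
    (t - t₀) ⟨by linarith [ht.1], by linarith [ht.2]⟩
  simpa using this

theorem IsFlow.eq_of_global_of_contDiff {X : E → E} (hX : ContDiff ℝ ∞ X) {fl : ℝ → E → E}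
    (hfl : IsFlow X fl) {α : ℝ → E} (hα : ∀ t, HasDerivAt α (X (α t)) t) (t : ℝ) :
    α t = fl t (α 0) := by
  have := hfl.eq_of_Ioo_of_contDiff hX (α := α) (a := -(|t| + 1)) (b := |t| + 1) (t₀ := 0)
    ⟨by have := abs_nonneg t; linarith, by positivity⟩
    (fun t _ => hα t) t (by rw [mem_Ioo, ← abs_lt]; exact lt_add_one _)
  simpa using this

/-- Group law for the global flow of a smooth field. -/
theorem IsFlow.add_of_contDiff {X : E → E} (hX : ContDiff ℝ ∞ X) {fl : ℝ → E → E}
    (hfl : IsFlow X fl) (s t : ℝ) (x : E) : fl (s + t) x = fl s (fl t x) := by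
  have := hfl.eq_of_global_of_contDiff hX (α := fun r => fl (r + t) x)
    (fun r => (hfl.2 x (r + t)).comp_add_const r t) s
  simpa using this

/-- **Localisation.** A global flow of a smooth field coincides, near any `(t₀, x₀)`, with the flow
of a compactly supported smooth field which agrees with `X` near the flow lines. -/
theorem IsFlow.exists_local_cut {X : E → E} (hX : ContDiff ℝ ∞ X) {fl : ℝ → E → E}
    (hfl : IsFlow X fl) (T : ℝ) (x₀ : E) :
    ∃ (F : E → E) (flF : ℝ → E → E) (W : Set E), ContDiff ℝ ∞ F ∧ HasCompactSupport F ∧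
      IsFlow F flF ∧ IsOpen W ∧ x₀ ∈ W ∧
      ∀ x ∈ W, ∀ t, |t| < T → fl t x = flF t x ∧ F =ᶠ[𝓝 (fl t x)] X := by
  have hc : Continuous fun t => fl t x₀ :=
    continuous_iff_continuousAt.mpr fun t => (hfl.2 x₀ t).continuousAt
  obtain ⟨C, hC⟩ := (isCompact_Icc (a := -T) (b := T)).exists_bound_of_continuousOn hc.continuousOn
  obtain ⟨F, hF, hFs, hFX⟩ := exists_cut hX (C + 1)
  obtain ⟨flF, hflF⟩ := exists_isFlow F hF hFs
  obtain ⟨K, hK⟩ := exists_lipschitz F hF hFs
  have hsm := hflF.contDiff hF hFs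
  -- the flow line of `x₀`
  have hx₀ : ∀ t ∈ Icc (-T) T, flF t x₀ = fl t x₀ := by
    intro t ht
    rcases lt_or_ge T 0 with hT | hT
    · exact absurd (ht.1.trans ht.2) (by linarith)
    have hcl : IsClosed {t | flF t x₀ = fl t x₀} :=
      isClosed_eq (hsm.continuous.comp (continuous_id.prodMk continuous_const)) hc
    rcases hT.eq_or_lt with hT | hT
    · have : t = 0 := le_antisymm (by linarith [ht.2]) (by linarith [ht.1])
      rw [this, hflF.1, hfl.1]
    have hsub : Icc (-T) T ⊆ {t | flF t x₀ = fl t x₀} := by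
      rw [← closure_Ioo (by linarith : -T ≠ T)]
      refine closure_minimal ?_ hcl
      intro r hr
      have := hflF.eq_of_Ioo hK (α := fun r => fl r x₀) (a := -T) (b := T) ⟨by linarith, hT⟩
        (fun r hr => by
          have := hfl.2 x₀ r
          rwa [← hFX _ ((hC r (Ioo_subset_Icc_self hr)).trans (by linarith))] at this) r hr
      simp only [hfl.1] at this
      exact this.symm
    exact hsub ht
  have hO : IsOpen {p : ℝ × E | ‖flF p.1 p.2‖ < C + 1} :=
    isOpen_lt hsm.continuous.norm continuous_const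
  have hsubO : Icc (-T) T ×ˢ ({x₀} : Set E) ⊆ {p : ℝ × E | ‖flF p.1 p.2‖ < C + 1} := by
    rintro ⟨t, x⟩ ⟨ht, hx⟩
    simp only [mem_singleton_iff] at hx
    simp only [mem_setOf_eq, hx]
    rw [hx₀ t ht]
    exact (hC t ht).trans_lt (by linarith)
  obtain ⟨U, W, hU, hW, hTU, hxW, hUW⟩ :=
    generalized_tube_lemma isCompact_Icc isCompact_singleton hO hsubO
  refine ⟨F, flF, W, hF, hFs, hflF, hW, hxW rfl, fun x hx t ht => ?_⟩
  have hlt : ∀ r, |r| < T → ‖flF r x‖ < C + 1 := fun r hr =>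
    hUW (mk_mem_prod (hTU (abs_le.mp hr.le)) hx)
  have hT : 0 < T := (abs_nonneg t).trans_lt ht
  have e : flF t x = fl t x := by
    have := hfl.eq_of_Ioo_of_contDiff hX (α := fun r => flF r x) (a := -T) (b := T) (t₀ := 0)
      ⟨by linarith, hT⟩
      (fun r hr => by
        have := hflF.2 x r
        rwa [hFX _ (hlt r (abs_lt.mpr hr)).le] at this) t (abs_lt.mp ht)
    simpa [hflF.1] using this
  refine ⟨e.symm, ?_⟩
  have hO' : IsOpen {z : E | ‖z‖ < C + 1} := isOpen_lt continuous_norm continuous_const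
  filter_upwards [hO'.mem_nhds (show ‖fl t x‖ < C + 1 by rw [← e]; exact hlt t ht)] with z hz
  exact hFX z (le_of_lt hz)

/-- **Smooth dependence**, no support condition: any global flow of a smooth field is smooth. -/
theorem IsFlow.contDiff_of_contDiff {X : E → E} (hX : ContDiff ℝ ∞ X) {fl : ℝ → E → E}
    (hfl : IsFlow X fl) : ContDiff ℝ ∞ (fun p : ℝ × E => fl p.1 p.2) := by
  rw [contDiff_iff_contDiffAt]
  rintro ⟨t₀, x₀⟩
  obtain ⟨F, flF, W, hF, hFs, hflF, hW, hxW, h⟩ := hfl.exists_local_cut hX (|t₀| + 1) x₀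
  refine (hflF.contDiff hF hFs).contDiffAt.congr_of_eventuallyEq ?_
  have hopen : IsOpen {p : ℝ × E | |p.1| < |t₀| + 1 ∧ p.2 ∈ W} :=
    (isOpen_lt (continuous_abs.comp continuous_fst) continuous_const).inter
      (hW.preimage continuous_snd)
  filter_upwards [hopen.mem_nhds (show |t₀| < |t₀| + 1 ∧ x₀ ∈ W from ⟨lt_add_one _, hxW⟩)]
    with p hp
  exact (h p.2 hp.2 p.1 hp.1).1

/-- **Variational equation**, no support condition. -/
theorem IsFlow.hasDerivAt_fderiv_of_contDiff {X : E → E} (hX : ContDiff ℝ ∞ X) {fl : ℝ → E → E}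
    (hfl : IsFlow X fl) (x : E) (t : ℝ) :
    HasDerivAt (fun s => fderiv ℝ (fl s) x)
      ((fderiv ℝ X (fl t x)).comp (fderiv ℝ (fl t) x)) t := by
  obtain ⟨F, flF, W, hF, hFs, hflF, hW, hxW, h⟩ := hfl.exists_local_cut hX (|t| + 1) x
  have e : ∀ s, |s| < |t| + 1 → fderiv ℝ (fl s) x = fderiv ℝ (flF s) x := by
    intro s hs
    refine Filter.EventuallyEq.fderiv_eq ?_
    filter_upwards [hW.mem_nhds hxW] with z hz
    exact (h z hz s hs).1
  have h1 := hflF.hasDerivAt_fderiv hF hFs x t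
  have ht := h x hxW t (lt_add_one _)
  rw [← ht.1, ht.2.fderiv_eq, ← e t (lt_add_one _)] at h1
  refine h1.congr_of_eventuallyEq ?_
  have hopen : IsOpen {s : ℝ | |s| < |t| + 1} := isOpen_lt continuous_abs continuous_const
  filter_upwards [hopen.mem_nhds (show |t| < |t| + 1 from lt_add_one _)] with s hs
  exact e s hs

theorem IsFlow.hasDerivAt_fderiv_apply_of_contDiff {X : E → E} (hX : ContDiff ℝ ∞ X)
    {fl : ℝ → E → E} (hfl : IsFlow X fl) (x q : E) (t : ℝ) :
    HasDerivAt (fun s => fderiv ℝ (fl s) x q)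
      (fderiv ℝ X (fl t x) (fderiv ℝ (fl t) x q)) t := by
  have h3 := (hfl.hasDerivAt_fderiv_of_contDiff hX x t).clm_apply (hasDerivAt_const t q)
  simpa using h3

/-- Global existence of integral curves under an a-priori bound. -/
theorem exists_global_curve {X : E → E} (hX : ContDiff ℝ ∞ X) (hA : APriori X) (x : E) :
    ∃ α : ℝ → E, α 0 = x ∧ ∀ t, HasDerivAt α (X (α t)) t := by
  have hloc : ∀ T : ℝ, 0 < T →
      ∃ α : ℝ → E, α 0 = x ∧ ∀ t ∈ Ioo (-T) T, HasDerivAt α (X (α t)) t := by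
    intro T _
    obtain ⟨B, hB⟩ := hA ‖x‖ T
    obtain ⟨F, hF, hFs, hFX⟩ := exists_cut hX (max B ‖x‖ + 1)
    obtain ⟨fl, hfl⟩ := exists_isFlow F hF hFs
    have htr := hfl.trapped hB (ρ := max B ‖x‖ + 1)
      ((le_max_left _ _).trans_lt (lt_add_one _)) ((le_max_right _ _).trans_lt (lt_add_one _))
      hFX (x := x) le_rfl
    refine ⟨fun t => fl t x, hfl.1 x, fun t ht => ?_⟩
    have := hfl.2 x t
    rwa [hFX _ ((htr t (abs_lt.mpr ht)).trans ((le_max_left _ _).trans (by linarith)))] at this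
  choose! β hβ0 hβ using hloc
  have heq : ∀ T T', 0 < T → T ≤ T' → EqOn (β T) (β T') (Ioo (-T) T) := by
    intro T T' hT hTT'
    refine eqOn_of_contDiff hX ⟨by linarith, hT⟩ (hβ T hT)
      (fun t ht => hβ T' (hT.trans_le hTT') t ⟨by linarith [ht.1], by linarith [ht.2]⟩) ?_
    rw [hβ0 T hT, hβ0 T' (hT.trans_le hTT')]
  have hpos : ∀ t : ℝ, 0 < |t| + 1 := fun t => by positivity
  have hmem : ∀ t : ℝ, t ∈ Ioo (-(|t| + 1)) (|t| + 1) := fun t => by
    rw [mem_Ioo, ← abs_lt]; exact lt_add_one _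
  refine ⟨fun t => β (|t| + 1) t, hβ0 _ (hpos 0), fun t => ?_⟩
  have hev : (fun s => β (|s| + 1) s) =ᶠ[𝓝 t] β (|t| + 1) := by
    filter_upwards [isOpen_Ioo.mem_nhds (hmem t)] with s hs
    rcases le_total (|s| + 1) (|t| + 1) with h | h
    · exact heq _ _ (hpos s) h (hmem s)
    · exact (heq _ _ (hpos t) h hs).symm
  exact (hβ _ (hpos t) t (hmem t)).congr_of_eventuallyEq hev

/-- **Global smooth flow** of a smooth vector field with an a-priori bound. -/
theorem exists_global_smooth_flow {X : E → E} (hX : ContDiff ℝ ∞ X) (hA : APriori X) :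
    ∃ fl : ℝ → E → E, IsFlow X fl ∧ ContDiff ℝ ∞ (fun p : ℝ × E => fl p.1 p.2) ∧
      (∀ s t x, fl (s + t) x = fl s (fl t x)) ∧
      (∀ (α : ℝ → E) (a b t₀ : ℝ), t₀ ∈ Ioo a b → (∀ t ∈ Ioo a b, HasDerivAt α (X (α t)) t) →
        ∀ t ∈ Ioo a b, α t = fl (t - t₀) (α t₀)) ∧
      (∀ x q t, HasDerivAt (fun s => fderiv ℝ (fl s) x q)
        (fderiv ℝ X (fl t x) (fderiv ℝ (fl t) x q)) t) := by
  choose fl h0 h1 using exists_global_curve hX hA
  have hfl : IsFlow X (fun t x => fl x t) := ⟨h0, h1⟩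
  exact ⟨_, hfl, hfl.contDiff_of_contDiff hX, hfl.add_of_contDiff hX,
    fun α a b t₀ h hα => hfl.eq_of_Ioo_of_contDiff hX h hα,
    hfl.hasDerivAt_fderiv_apply_of_contDiff hX⟩

end ODE
end Claimed.Agent.R213
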